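import Mathlib
import Vale.Agent.Lib.P083.Cuntz

namespace Vale.Agent.Results.P083.CuntzPermanence

open Vale.Agent.Lib.P083

/-- Let `D` be a unital C*-algebra containing two isometries `s₁, s₂` with
`s₁ s₁* + s₂ s₂* = 1` (for instance the norm ultrapower of the Cuntz algebra `O₂`).
If unital C*-algebras `A` and `B` admit unital embeddings into `D`, then so do the direct sum
`A × B` and every matrix algebra `M_n(A)`, `n ≥ 1`. -/
theorem result {D : Type*} [CStarAlgebra D] (s₁ s₂ : D)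
    (h₁ : star s₁ * s₁ = 1) (h₂ : star s₂ * s₂ = 1)
    (h : s₁ * star s₁ + s₂ * star s₂ = 1)
    {A B : Type*} [CStarAlgebra A] [CStarAlgebra B]
    (φ : A →⋆ₐ[ℂ] D) (hφ : Function.Injective φ)
    (ψ : B →⋆ₐ[ℂ] D) (hψ : Function.Injective ψ) :
    (∃ θ : (A × B) →⋆ₐ[ℂ] D, Function.Injective θ) ∧
    (∀ n : ℕ, n ≠ 0 →
      ∃ θ : CStarMatrix (Fin n) (Fin n) A →⋆ₐ[ℂ] D, Function.Injective θ) := by
  refine ⟨⟨sumHom s₁ s₂ h₁ h₂ h φ ψ, sumHom_injective s₁ s₂ h₁ h₂ h φ ψ hφ hψ⟩, ?_⟩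
  intro n hn
  obtain ⟨F⟩ := exists_cuntzFamily s₁ s₂ h₁ h₂ h n hn
  exact ⟨matHom F φ, matHom_injective F φ hφ⟩

end Vale.Agent.Results.P083.CuntzPermanence
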